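import Mathlib
open Polynomial

namespace Vale.Agent.Lib.P110

lemma exists_circle_ge (T : ℂ[X]) :
    ∃ z : ℂ, ‖z‖ = 1 ∧ ∑ i ∈ T.support, ‖T.coeff i‖ ^ 2 ≤ ‖T.eval z‖ ^ 2 := by
  have hcont : Continuous (fun z : ℂ => ‖T.eval z‖ ^ 2) := by fun_prop
  have hcomp : IsCompact (Metric.sphere (0 : ℂ) 1) := isCompact_sphere 0 1
  have hne : (Metric.sphere (0 : ℂ) 1).Nonempty := ⟨1, by simp⟩
  obtain ⟨z0, hz0, hmax⟩ := hcomp.exists_isMaxOn hne hcont.continuousOn
  refine ⟨z0, by simpa using hz0, ?_⟩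
  rw [Polynomial.sum_sq_norm_coeff_eq_circleAverage]
  apply Real.circleAverage_mono_on_of_le_circle
  · exact hcont.continuousOn.circleIntegrable (by norm_num)
  · intro x hx
    have hx' : x ∈ Metric.sphere (0 : ℂ) 1 := by simpa using hx
    exact hmax hx'

variable {N : ℕ} (ε : Fin N → ℤ)

noncomputable def Pz : ℤ[X] := ∑ k : Fin N, C (ε k) * X ^ (k : ℕ)
noncomputable def Qz : ℤ[X] := ∑ k : Fin N, C (ε k) * X ^ (N - 1 - (k : ℕ))
noncomputable def Tz : ℤ[X] := Pz ε * Qz ε - C (N : ℤ) * X ^ (N - 1)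

lemma cast_eps (hε : ∀ k, ε k = 1 ∨ ε k = -1) (k : Fin N) : ((ε k : ℤ) : ZMod 2) = 1 := by
  rcases hε k with h | h <;> rw [h] <;> decide

lemma map_Pz (hε : ∀ k, ε k = 1 ∨ ε k = -1) :
    (Pz ε).map (Int.castRingHom (ZMod 2)) = ∑ k : Fin N, X ^ (k : ℕ) := by
  rw [Pz, Polynomial.map_sum]
  apply Finset.sum_congr rfl
  intro k _
  rw [Polynomial.map_mul, Polynomial.map_C, Polynomial.map_pow, Polynomial.map_X, eq_intCast,
    cast_eps ε hε k]
  simp

lemma map_Qz (hε : ∀ k, ε k = 1 ∨ ε k = -1) :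
    (Qz ε).map (Int.castRingHom (ZMod 2)) = ∑ k : Fin N, X ^ (k : ℕ) := by
  have h1 : (Qz ε).map (Int.castRingHom (ZMod 2)) = ∑ k : Fin N, X ^ (N - 1 - (k : ℕ)) := by
    rw [Qz, Polynomial.map_sum]
    apply Finset.sum_congr rfl
    intro k _
    rw [Polynomial.map_mul, Polynomial.map_C, Polynomial.map_pow, Polynomial.map_X, eq_intCast,
      cast_eps ε hε k]
    simp
  rw [h1, ← Equiv.sum_comp Fin.revPerm]
  apply Finset.sum_congr rfl
  intro k _
  congr 1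
  simp [Fin.val_rev]
  omega

lemma coeff_prod_even (hε : ∀ k, ε k = 1 ∨ ε k = -1) (j : ℕ) (hj : j < N) :
    (((Pz ε * Qz ε).coeff (2 * j) : ℤ) : ZMod 2) = 1 := by
  have h : ((Pz ε * Qz ε).map (Int.castRingHom (ZMod 2))).coeff (2 * j) = 1 := by
    rw [Polynomial.map_mul, map_Pz ε hε, map_Qz ε hε, ← sq, sum_pow_char 2]
    simp only [← pow_mul, Polynomial.finsetSum_coeff, Polynomial.coeff_X_pow]
    rw [Finset.sum_eq_single (⟨j, hj⟩ : Fin N)]
    · simp [mul_comm]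
    · intro b _ hb
      have : 2 * j ≠ (b : ℕ) * 2 := by
        intro h
        apply hb
        ext
        simp
        omega
      simp [this]
    · simp
  rw [Polynomial.coeff_map] at h
  simpa using h


lemma Tz_coeff_ne (hε : ∀ k, ε k = 1 ∨ ε k = -1) (j : ℕ) (hj : j < N) (h2 : 2 * j ≠ N - 1) :
    (Tz ε).coeff (2 * j) ≠ 0 := by
  have h := coeff_prod_even ε hε j hj
  rw [Tz, Polynomial.coeff_sub, Polynomial.coeff_C_mul_X_pow, if_neg h2, sub_zero]
  intro h0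
  rw [h0] at h
  simp at h

noncomputable def Tc : ℂ[X] := (Tz ε).map (Int.castRingHom ℂ)

lemma sum_sq_ge (hε : ∀ k, ε k = 1 ∨ ε k = -1) :
    (N : ℝ) - 1 ≤ ∑ i ∈ (Tc ε).support, ‖(Tc ε).coeff i‖ ^ 2 := by
  have hsupp : (Tc ε).support = (Tz ε).support :=
    Polynomial.support_map_of_injective _ (RingHom.injective_int _)
  rw [hsupp]
  set S : Finset ℕ := ((Finset.range N).image (fun j => 2 * j)).erase (N - 1) with hS
  have hsub : S ⊆ (Tz ε).support := by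
    intro i hi
    rw [hS, Finset.mem_erase, Finset.mem_image] at hi
    obtain ⟨hne, j, hj, rfl⟩ := hi
    rw [Polynomial.mem_support_iff]
    exact Tz_coeff_ne ε hε j (Finset.mem_range.1 hj) hne
  have hcard : N - 1 ≤ S.card := by
    have h1 : ((Finset.range N).image (fun j => 2 * j)).card = N := by
      rw [Finset.card_image_of_injective _ (fun a b h => by simpa using h), Finset.card_range]
    have h2 := Finset.pred_card_le_card_erase (s := (Finset.range N).image (fun j => 2 * j))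
      (a := N - 1)
    rw [h1] at h2
    exact h2
  have hterm : ∀ i ∈ (Tz ε).support, (1 : ℝ) ≤ ‖(Tc ε).coeff i‖ ^ 2 := by
    intro i hi
    rw [Polynomial.mem_support_iff] at hi
    rw [Tc, Polynomial.coeff_map, eq_intCast, Complex.norm_intCast, sq_abs]
    have : (1 : ℤ) ≤ ((Tz ε).coeff i) ^ 2 := by
      have := sq_pos_of_ne_zero hi
      omega
    exact_mod_cast this
  calc (N : ℝ) - 1 ≤ ((N - 1 : ℕ) : ℝ) := by
        rcases Nat.eq_zero_or_pos N with h | h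
        · subst h; simp
        · rw [Nat.cast_sub h]; simp
    _ ≤ (S.card : ℝ) := by exact_mod_cast hcard
    _ ≤ ((Tz ε).support.card : ℝ) := by exact_mod_cast Finset.card_le_card hsub
    _ = ∑ i ∈ (Tz ε).support, (1 : ℝ) := by simp
    _ ≤ _ := Finset.sum_le_sum hterm

lemma eval_Tc (z : ℂ) (hz : ‖z‖ = 1) :
    (Tc ε).eval z = z ^ (N - 1) *
      (((‖∑ k : Fin N, (ε k : ℂ) * z ^ (k : ℕ)‖ ^ 2 - N : ℝ)) : ℂ) := by
  have hzz : z * (starRingEnd ℂ) z = 1 := by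
    rw [Complex.mul_conj, Complex.normSq_eq_norm_sq, hz]; simp
  have hP : ((Pz ε).map (Int.castRingHom ℂ)).eval z = ∑ k : Fin N, (ε k : ℂ) * z ^ (k : ℕ) := by
    simp [Pz, Polynomial.map_sum, Polynomial.eval_finsetSum]
  have hQ : ((Qz ε).map (Int.castRingHom ℂ)).eval z
      = z ^ (N - 1) * (starRingEnd ℂ) (∑ k : Fin N, (ε k : ℂ) * z ^ (k : ℕ)) := by
    have : ((Qz ε).map (Int.castRingHom ℂ)).eval z
        = ∑ k : Fin N, (ε k : ℂ) * z ^ (N - 1 - (k : ℕ)) := by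
      simp [Qz, Polynomial.map_sum, Polynomial.eval_finsetSum]
    rw [this, map_sum, Finset.mul_sum]
    apply Finset.sum_congr rfl
    intro k _
    have hk : (k : ℕ) ≤ N - 1 := by have := k.2; omega
    rw [map_mul, map_pow, map_intCast]
    have : z ^ (N - 1) = z ^ (N - 1 - (k : ℕ)) * z ^ (k : ℕ) := by
      rw [← pow_add]; congr 1; omega
    rw [this]
    have h3 : z ^ (k : ℕ) * (starRingEnd ℂ) z ^ (k : ℕ) = 1 := by
      rw [← mul_pow, hzz, one_pow]
    calc (ε k : ℂ) * z ^ (N - 1 - (k : ℕ))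
        = (ε k : ℂ) * z ^ (N - 1 - (k : ℕ)) * (z ^ (k : ℕ) * (starRingEnd ℂ) z ^ (k : ℕ)) := by
          rw [h3, mul_one]
      _ = _ := by ring
  rw [Tc, Tz, Polynomial.map_sub, Polynomial.map_mul, Polynomial.eval_sub, Polynomial.eval_mul,
    hP, hQ]
  set p := ∑ k : Fin N, (ε k : ℂ) * z ^ (k : ℕ) with hp
  have hpp : p * (starRingEnd ℂ) p = ((‖p‖ ^ 2 : ℝ) : ℂ) := by
    rw [Complex.mul_conj, Complex.normSq_eq_norm_sq]
  have hN : (Polynomial.map (Int.castRingHom ℂ) (C (N : ℤ) * X ^ (N - 1))).eval z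
      = (N : ℂ) * z ^ (N - 1) := by
    simp
  rw [hN]
  push_cast
  push_cast at hpp
  linear_combination (z ^ (N - 1)) * hpp

theorem main (hε : ∀ k, ε k = 1 ∨ ε k = -1) :
    ∃ z : ℂ, ‖z‖ = 1 ∧
      Real.sqrt ((N : ℝ) - 1) ≤ |‖∑ k : Fin N, (ε k : ℂ) * z ^ (k : ℕ)‖ ^ 2 - N| := by
  obtain ⟨z, hz, h⟩ := exists_circle_ge (Tc ε)
  refine ⟨z, hz, ?_⟩
  have h1 := (sum_sq_ge ε hε).trans h
  rw [eval_Tc ε z hz, norm_mul, norm_pow, hz, one_pow, one_mul, Complex.norm_real,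
    Real.norm_eq_abs] at h1
  rw [← Real.sqrt_sq (abs_nonneg _)]
  exact Real.sqrt_le_sqrt h1

end Vale.Agent.Lib.P110
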